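import Mathlib
import Vale.Agent.P110.Stmt
import Vale.Agent.P110.Main

open Filter Vale.Agent.P110

theorem Vale.Agent.Results.P110.AngularSpeed.result :
    (∀ s t η : ℝ, s < t → 0 < η →
      ∃ δ : ℝ, 0 < δ ∧ ∃ N₀ : ℕ, ∀ (N : ℕ) (ε : ℕ → ℝ), N₀ ≤ N → IsLittlewood N ε →
        FlatUpTo δ N ε → ∀ c ∈ Set.Icc (0 : ℝ) 1, ∃ x ∈ Set.Ioo s t, |speed N ε x - c| < η) ∧
    (∀ (N : ℕ → ℕ) (ε : ℕ → ℕ → ℝ), IsUltraflat N ε →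
      (∀ s t η : ℝ, s < t → 0 < η → ∀ᶠ n in atTop, ∀ c ∈ Set.Icc (0 : ℝ) 1,
        ∃ x ∈ Set.Ioo s t, |speed (N n) (ε n) x - c| < η) ∧
      ∀ x₀ : ℝ, ¬ ∀ η : ℝ, 0 < η → ∃ ρ : ℝ, 0 < ρ ∧ ∃ᶠ n in atTop, ∀ x : ℝ, |x - x₀| < ρ →
        |speed (N n) (ε n) x - speed (N n) (ε n) x₀| < η) :=
  ⟨finite_form, fun N ε hU =>
    ⟨fun s t η hst hη => seq_form N ε hU s t hst η hη, not_equi N ε hU⟩⟩
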